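import Mathlib

/-!
# Two free generators of a subgroup among the free generators of a finite index subgroup

A weak form of the theorem of Marshall Hall: if a subgroup `M` of a free group of finite rank holds
two elements that do not commute, then some finite index subgroup has a free basis with at least two
members in `M`.
-/

namespace Vale.Agent.P165FreeProd.Sub

variable {α : Type*} {V : Type*}

/-- The group element of a letter. -/
def lf (l : α × Bool) : FreeGroup α := FreeGroup.mk [l]

theorem lf_true (a : α) : lf (a, true) = FreeGroup.of a := rfl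

theorem lf_false (a : α) : lf (a, false) = (FreeGroup.of a)⁻¹ := rfl

theorem mk_cons (l : α × Bool) (L : List (α × Bool)) :
    FreeGroup.mk (l :: L) = lf l * FreeGroup.mk L := by
  rw [lf, FreeGroup.mul_mk]; rfl

/-- Labelled permutations act on pairs; the second entry is the cocycle. -/
def wr {J : Type*} (σ : α → Equiv.Perm V) (s : V → α → FreeGroup J) :
    FreeGroup α →* Equiv.Perm (V × FreeGroup J) :=
  FreeGroup.lift fun a => Equiv.prodShear (σ a) fun u => Equiv.mulLeft (s u a)

/-- The cocycle. -/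
def coc {J : Type*} (σ : α → Equiv.Perm V) (s : V → α → FreeGroup J) (g : FreeGroup α) (u : V) :
    FreeGroup J :=
  (wr σ s g (u, 1)).2

section Cocycle

variable {J : Type*} {σ : α → Equiv.Perm V} {s : V → α → FreeGroup J}

theorem wr_apply (g : FreeGroup α) : ∀ (u : V) (h : FreeGroup J),
    wr σ s g (u, h) = (FreeGroup.lift σ g u, coc σ s g u * h) := by
  suffices h' : ∀ g : FreeGroup α, ∃ c : V → FreeGroup J, ∀ u h,
      wr σ s g (u, h) = (FreeGroup.lift σ g u, c u * h) by
    intro u h
    obtain ⟨c, hc⟩ := h' g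
    have hcc : coc σ s g u = c u := by rw [coc, hc, mul_one]
    rw [hc, hcc]
  intro g
  induction g using FreeGroup.induction_on with
  | C1 => exact ⟨fun _ => 1, fun u h => by simp⟩
  | of a => exact ⟨fun u => s u a, fun u h => by simp [wr]⟩
  | inv_of a _ =>
    refine ⟨fun u => (s ((σ a).symm u) a)⁻¹, fun u h => ?_⟩
    rw [_root_.map_inv, Equiv.Perm.inv_def, Equiv.symm_apply_eq]
    simp [wr, ← Equiv.Perm.inv_def]
  | mul g g' hg hg' =>
    obtain ⟨c, hc⟩ := hg
    obtain ⟨c', hc'⟩ := hg'
    exact ⟨fun u => c (FreeGroup.lift σ g' u) * c' u, fun u h => by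
      simp [Equiv.Perm.mul_apply, hc, hc', mul_assoc]⟩

theorem coc_mul (g h : FreeGroup α) (u : V) :
    coc σ s (g * h) u = coc σ s g (FreeGroup.lift σ h u) * coc σ s h u := by
  rw [coc, _root_.map_mul, Equiv.Perm.mul_apply, wr_apply h, wr_apply g, mul_one]

theorem coc_one (u : V) : coc σ s 1 u = 1 := by simp [coc]

theorem coc_of (a : α) (u : V) : coc σ s (FreeGroup.of a) u = s u a := by simp [coc, wr]

theorem coc_inv (g : FreeGroup α) (u : V) :
    coc σ s g⁻¹ (FreeGroup.lift σ g u) = (coc σ s g u)⁻¹ := by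
  refine eq_inv_of_mul_eq_one_left ?_
  rw [← coc_mul, inv_mul_cancel, coc_one]

end Cocycle

/-- In a group generated freely, two distinct generators do not commute. -/
theorem eq_of_commute_of {ι : Type*} (i j : ι)
    (h : FreeGroup.of i * FreeGroup.of j = FreeGroup.of j * FreeGroup.of i) : i = j := by
  classical
  by_contra hne
  have h2 := congrArg (FreeGroup.lift fun k : ι =>
    if k = i then Equiv.swap (0 : Fin 3) 1 else Equiv.swap (1 : Fin 3) 2) h
  simp only [_root_.map_mul, FreeGroup.lift_apply_of, if_true, if_neg (Ne.symm hne)] at h2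
  exact absurd h2 (by decide)

variable [DecidableEq α]

open Classical in
/-- Some finite index subgroup is freely generated with two generators in `M`. -/
theorem exists_hall [Finite α] (M : Subgroup (FreeGroup α)) {x y : FreeGroup α} (hx : x ∈ M)
    (hy : y ∈ M) (hne : x * y ≠ y * x) :
    ∃ (K : Subgroup (FreeGroup α)) (m : ℕ) (φ : K →* FreeGroup (Fin (m + 2))), K.FiniteIndex ∧
      Function.Injective φ ∧
        ∀ b : Bool, ∃ k : K, (k : FreeGroup α) ∈ M ∧ φ k = FreeGroup.of (if b then 1 else 0) := by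
  haveI : Fintype α := Fintype.ofFinite α
  -- the vertices: the cosets of the suffixes of the two words
  set P : List (α × Bool) → Prop := fun L => L <:+ x.toWord ∨ L <:+ y.toWord
  have hPnil : P [] := Or.inl List.nil_suffix
  have hPtail : ∀ {l L}, P (l :: L) → P L := fun {l L} h =>
    h.imp (List.suffix_cons l L).trans (List.suffix_cons l L).trans
  set S : Set (FreeGroup α ⧸ M) := (fun L => (FreeGroup.mk L : FreeGroup α ⧸ M)) '' {L | P L}
  have hSfin : S.Finite := Set.Finite.image _ <| ((x.toWord.tails ++ y.toWord.tails).finite_toSet).subset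
    fun L (hL : P L) => by
      rcases hL with h | h
      · exact List.mem_append_left _ ((List.mem_tails _ _).2 h)
      · exact List.mem_append_right _ ((List.mem_tails _ _).2 h)
  haveI : Fintype S := hSfin.fintype
  set b : S := ⟨_, [], hPnil, rfl⟩
  have hb : (b : FreeGroup α ⧸ M) = ((1 : FreeGroup α) : FreeGroup α ⧸ M) := rfl
  -- the permutations extending the action on the vertices
  have hσ : ∀ a : α, ∃ σ : Equiv.Perm S, ∀ u w : S,
      FreeGroup.of a • (u : FreeGroup α ⧸ M) = (w : FreeGroup α ⧸ M) → σ u = w := by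
    intro a
    obtain ⟨σ, hσ⟩ := Equiv.Perm.exists_extending_pair
      (fun u : {u : S // FreeGroup.of a • (u : FreeGroup α ⧸ M) ∈ S} => u.1)
      (fun u => ⟨_, u.2⟩) Subtype.val_injective fun u v h => by
        exact Subtype.ext (Subtype.ext (MulAction.injective (FreeGroup.of a) (congrArg Subtype.val h)))
    refine ⟨σ, fun u w huw => ?_⟩
    refine (hσ ⟨u, huw ▸ w.2⟩).trans (Subtype.ext huw)
  choose σ hσ using hσ
  set τ := FreeGroup.lift σ
  have hlf : ∀ (l : α × Bool) (u w : S),
      lf l • (u : FreeGroup α ⧸ M) = (w : FreeGroup α ⧸ M) → τ (lf l) u = w := by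
    rintro ⟨a, _ | _⟩ u w h
    · rw [lf_false, inv_smul_eq_iff] at h
      rw [lf_false, _root_.map_inv, Equiv.Perm.inv_def, Equiv.symm_apply_eq, FreeGroup.lift_apply_of]
      exact (hσ a w u h.symm).symm
    · rw [lf_true, FreeGroup.lift_apply_of]
      exact hσ a u w (by rwa [lf_true] at h)
  -- distances and parents
  have hex : ∀ v : S, ∃ k, ∃ L, L.length = k ∧ P L ∧
      (FreeGroup.mk L : FreeGroup α ⧸ M) = (v : FreeGroup α ⧸ M) := by
    rintro ⟨-, L, hL, rfl⟩
    exact ⟨_, L, rfl, hL, rfl⟩
  set dist : S → ℕ := fun v => Nat.find (hex v)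
  have hpar : ∀ v : S, v ≠ b → ∃ (l : α × Bool) (p : S), dist p < dist v ∧
      lf l • (p : FreeGroup α ⧸ M) = (v : FreeGroup α ⧸ M) := by
    intro v hv
    obtain ⟨L, hlen, hL, he⟩ := Nat.find_spec (hex v)
    rcases L with - | ⟨l, L⟩
    · exact absurd (Subtype.ext he).symm hv
    refine ⟨l, ⟨_, L, hPtail hL, rfl⟩, ?_, ?_⟩
    · exact lt_of_le_of_lt (Nat.find_min' _ ⟨L, rfl, hPtail hL, rfl⟩)
        (by simp only [dist, ← hlen, List.length_cons]; omega)
    · rw [← he, mk_cons]; rfl
  choose pl pp hpd hpe using hpar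
  -- the tree
  set tree : Set (S × α) := {e | ∃ (v : S) (h : v ≠ b),
    e = if (pl v h).2 then (pp v h, (pl v h).1) else (v, (pl v h).1)}
  set s : S → α → FreeGroup {e : S × α // e ∉ tree} := fun u a =>
    if h : (u, a) ∈ tree then 1 else FreeGroup.of ⟨(u, a), h⟩
  obtain ⟨t, ht⟩ : ∃ t : S → FreeGroup α,
      ∀ v, t v = if h : v = b then 1 else lf (pl v h) * t (pp v h) :=
    ⟨(InvImage.wf dist Nat.lt_wfRel.wf).fix fun v rec =>
      if h : v = b then 1 else lf (pl v h) * rec (pp v h) (hpd v h),
      fun v => WellFounded.fix_eq _ _ v⟩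
  have htb : t b = 1 := by rw [ht, dif_pos rfl]
  have htv : ∀ k, ∀ v : S, dist v ≤ k → (t v : FreeGroup α ⧸ M) = (v : FreeGroup α ⧸ M) ∧
      τ (t v) b = v ∧ coc σ s (t v) b = 1 := by
    intro k
    induction k using Nat.strong_induction_on with
    | _ k ih =>
      intro v hv
      rcases eq_or_ne v b with rfl | hne
      · rw [htb]; exact ⟨hb.symm, by simp, coc_one _⟩
      obtain ⟨i1, i2, i3⟩ := ih _ (lt_of_lt_of_le (hpd v hne) hv) (pp v hne) le_rfl
      rw [ht, dif_neg hne]
      have hστ := hlf _ _ _ (hpe v hne)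
      refine ⟨?_, ?_, ?_⟩
      · calc ((lf (pl v hne) * t (pp v hne) : FreeGroup α) : FreeGroup α ⧸ M)
            = lf (pl v hne) • ((t (pp v hne) : FreeGroup α) : FreeGroup α ⧸ M) := rfl
          _ = _ := by rw [i1, hpe v hne]
      · rw [_root_.map_mul, Equiv.Perm.mul_apply, i2, hστ]
      rw [coc_mul, i3, mul_one, show FreeGroup.lift σ (t (pp v hne)) b = pp v hne from i2]
      have htree : (if (pl v hne).2 then (pp v hne, (pl v hne).1) else (v, (pl v hne).1)) ∈ tree :=
        ⟨v, hne, rfl⟩
      rcases hl : pl v hne with ⟨a, _ | _⟩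
      · simp only [hl, Bool.false_eq_true, if_false] at htree
        rw [hl, lf_false, _root_.map_inv, Equiv.Perm.inv_def, Equiv.symm_apply_eq,
          FreeGroup.lift_apply_of] at hστ
        have h1 := coc_inv (σ := σ) (s := s) (FreeGroup.of a) v
        rw [FreeGroup.lift_apply_of, ← hστ, coc_of, show s v a = 1 from dif_pos htree, inv_one] at h1
        rwa [lf_false]
      · simp only [hl, if_true] at htree
        rw [lf_true, coc_of]
        exact dif_pos htree
  have ht1 : ∀ v : S, (t v : FreeGroup α ⧸ M) = (v : FreeGroup α ⧸ M) := fun v => (htv _ v le_rfl).1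
  have ht2 : ∀ v, τ (t v) b = v := fun v => (htv _ v le_rfl).2.1
  have ht3 : ∀ v, coc σ s (t v) b = 1 := fun v => (htv _ v le_rfl).2.2
  have htree1 : ∀ u a, (u, a) ∈ tree → (t (σ a u))⁻¹ * (FreeGroup.of a * t u) = 1 := by
    rintro u a ⟨v, hv, he⟩
    have h0 := ht v
    rw [dif_neg hv] at h0
    have h1 := hlf _ _ _ (hpe v hv)
    rcases hl : pl v hv with ⟨a', _ | _⟩
    · simp only [hl, Bool.false_eq_true, if_false, Prod.mk.injEq] at he
      obtain ⟨rfl, rfl⟩ := he
      rw [hl, lf_false] at h0 h1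
      rw [_root_.map_inv, Equiv.Perm.inv_def, Equiv.symm_apply_eq, FreeGroup.lift_apply_of] at h1
      rw [← h1, h0, mul_inv_cancel_left, inv_mul_cancel]
    · simp only [hl, if_true, Prod.mk.injEq] at he
      obtain ⟨rfl, rfl⟩ := he
      rw [hl, lf_true] at h0 h1
      rw [FreeGroup.lift_apply_of] at h1
      rw [h1, ← h0, inv_mul_cancel]
  -- the subgroup and its isomorphism
  set K : Subgroup (FreeGroup α) := (MulAction.stabilizer (Equiv.Perm S) b).comap τ
  have hK : ∀ g, g ∈ K ↔ τ g b = b := fun g => Iff.rfl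
  set φ : K →* FreeGroup {e : S × α // e ∉ tree} :=
    MonoidHom.mk' (fun g => coc σ s (g : FreeGroup α) b) fun g h => by
      simp only [Subgroup.coe_mul]
      rw [coc_mul, show FreeGroup.lift σ (h : FreeGroup α) b = b from h.2]
  set gen : {e : S × α // e ∉ tree} → FreeGroup α := fun e =>
    (t (σ e.1.2 e.1.1))⁻¹ * (FreeGroup.of e.1.2 * t e.1.1)
  have hΨ : ∀ g : FreeGroup α, ∀ u,
      FreeGroup.lift gen (coc σ s g u) = (t (τ g u))⁻¹ * (g * t u) := by
    intro g
    induction g using FreeGroup.induction_on with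
    | C1 => intro u; simp [coc_one]
    | of a =>
      intro u
      rw [coc_of, FreeGroup.lift_apply_of]
      by_cases h : (u, a) ∈ tree
      · rw [show s u a = 1 from dif_pos h, _root_.map_one, htree1 u a h]
      · rw [show s u a = FreeGroup.of ⟨(u, a), h⟩ from dif_neg h, FreeGroup.lift_apply_of]
    | inv_of a ih =>
      intro u
      obtain ⟨w, rfl⟩ := (τ (FreeGroup.of a)).surjective u
      rw [show τ (FreeGroup.of a) w = FreeGroup.lift σ (FreeGroup.of a) w from rfl, coc_inv,
        _root_.map_inv, ih, _root_.map_inv]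
      simp [τ, mul_assoc]
    | mul g g' hg hg' =>
      intro u
      rw [coc_mul, _root_.map_mul, hg, hg', _root_.map_mul, Equiv.Perm.mul_apply]
      show _ = _
      simp only [τ]
      group
  have hinj : Function.Injective φ := fun g h he => Subtype.ext (by
    have hg := hΨ g.1 b
    rw [show τ g.1 b = b from g.2, htb, inv_one, one_mul, mul_one] at hg
    have hh := hΨ h.1 b
    rw [show τ h.1 b = b from h.2, htb, inv_one, one_mul, mul_one] at hh
    rw [← hg, ← hh]
    exact congrArg _ he)
  have hgen : ∀ e, ∃ k : K, (k : FreeGroup α) = gen e ∧ φ k = FreeGroup.of e := by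
    rintro ⟨⟨u, a⟩, he⟩
    have hk : τ ((t (σ a u))⁻¹ * (FreeGroup.of a * t u)) b = b := by
      rw [_root_.map_mul, _root_.map_mul, _root_.map_inv, Equiv.Perm.mul_apply,
        Equiv.Perm.mul_apply, ht2, FreeGroup.lift_apply_of, Equiv.Perm.inv_def, Equiv.symm_apply_eq,
        ht2]
    refine ⟨⟨_, hk⟩, rfl, ?_⟩
    show coc σ s ((t (σ a u))⁻¹ * (FreeGroup.of a * t u)) b = _
    have h1 : FreeGroup.lift σ (FreeGroup.of a * t u) b = FreeGroup.lift σ (t (σ a u)) b := by
      rw [_root_.map_mul, Equiv.Perm.mul_apply, show FreeGroup.lift σ (t u) b = u from ht2 u,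
        FreeGroup.lift_apply_of, show FreeGroup.lift σ (t (σ a u)) b = σ a u from ht2 _]
    rw [coc_mul, h1, coc_inv, ht3, inv_one, one_mul, coc_mul, ht3, mul_one,
      show FreeGroup.lift σ (t u) b = u from ht2 u, coc_of]
    exact dif_neg he
  -- two generators come from honest edges
  set real : Set {e : S × α // e ∉ tree} := {e |
    FreeGroup.of e.1.2 • (e.1.1 : FreeGroup α ⧸ M) = (σ e.1.2 e.1.1 : FreeGroup α ⧸ M)}
  have hrealM : ∀ e ∈ real, gen e ∈ M := by
    intro e he
    have h1 : ((gen e : FreeGroup α) : FreeGroup α ⧸ M) = ((1 : FreeGroup α) : FreeGroup α ⧸ M) := by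
      calc ((gen e : FreeGroup α) : FreeGroup α ⧸ M)
          = (t (σ e.1.2 e.1.1))⁻¹ • (FreeGroup.of e.1.2 • (t e.1.1 : FreeGroup α ⧸ M)) := rfl
        _ = (t (σ e.1.2 e.1.1))⁻¹ • (σ e.1.2 e.1.1 : FreeGroup α ⧸ M) := by rw [ht1, he]
        _ = _ := by
          rw [← ht1, MulAction.Quotient.smul_coe, smul_eq_mul, inv_mul_cancel]
    simpa using QuotientGroup.eq.1 h1
  have htwo : ∃ e ∈ real, ∃ e' ∈ real, e ≠ e' := by
    by_contra hc
    push Not at hc
    set Z := Subgroup.closure ((fun e => FreeGroup.of e) '' real)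
    have hword : ∀ L, P L → ∀ hv : (FreeGroup.mk L : FreeGroup α ⧸ M) ∈ S,
        τ (FreeGroup.mk L) b = ⟨_, hv⟩ ∧ coc σ s (FreeGroup.mk L) b ∈ Z := by
      intro L
      induction L with
      | nil =>
        intro _ hv
        have h1 : FreeGroup.mk ([] : List (α × Bool)) = 1 := rfl
        refine ⟨(congrArg (fun g => τ g b) h1).trans ?_, ?_⟩
        · simp only [_root_.map_one, Equiv.Perm.one_apply]
          rfl
        · rw [h1, coc_one]; exact Z.one_mem
      | cons l L ih =>
        intro hL hv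
        obtain ⟨i1, i2⟩ := ih (hPtail hL) ⟨L, hPtail hL, rfl⟩
        set p : S := ⟨_, L, hPtail hL, rfl⟩
        set w : S := ⟨_, hv⟩
        have he : lf l • (p : FreeGroup α ⧸ M) = (w : FreeGroup α ⧸ M) := by
          simp only [p, w, mk_cons]; rfl
        have hw := hlf l p w he
        refine ⟨?_, ?_⟩
        · rw [mk_cons, _root_.map_mul, Equiv.Perm.mul_apply, i1, hw]
        rw [mk_cons, coc_mul, show FreeGroup.lift σ (FreeGroup.mk L) b = p from i1]
        refine Z.mul_mem ?_ i2
        have hedge : ∀ u w : S, ∀ a, FreeGroup.of a • (u : FreeGroup α ⧸ M) = w → s u a ∈ Z := by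
          intro u w a h
          by_cases hT : (u, a) ∈ tree
          · rw [show s u a = 1 from dif_pos hT]; exact Z.one_mem
          · rw [show s u a = FreeGroup.of ⟨(u, a), hT⟩ from dif_neg hT]
            refine Subgroup.subset_closure ⟨_, ?_, rfl⟩
            show FreeGroup.of a • (u : FreeGroup α ⧸ M) = (σ a u : FreeGroup α ⧸ M)
            rw [hσ a u w h, h]
        obtain ⟨a, _ | _⟩ := l
        · rw [lf_false] at he hw ⊢
          rw [inv_smul_eq_iff] at he
          have h1 := coc_inv (σ := σ) (s := s) (FreeGroup.of a) w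
          rw [FreeGroup.lift_apply_of, hσ a w p he.symm, coc_of] at h1
          rw [h1]
          exact Z.inv_mem (hedge w p a he.symm)
        · rw [lf_true] at he ⊢
          rw [coc_of]
          exact hedge p w a he
    have hmem : ∀ z ∈ M, P z.toWord → ∃ k : K, (k : FreeGroup α) = z ∧ φ k ∈ Z := by
      intro z hz hP
      obtain ⟨h1, h2⟩ := hword z.toWord hP ⟨_, hP, rfl⟩
      rw [FreeGroup.mk_toWord] at h2
      have h3 : τ z b = b := by
        refine (congrArg (fun g => τ g b) FreeGroup.mk_toWord.symm).trans (h1.trans (Subtype.ext ?_))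
        show ((FreeGroup.mk z.toWord : FreeGroup α) : FreeGroup α ⧸ M) = _
        rw [FreeGroup.mk_toWord, hb]
        exact QuotientGroup.eq.2 (by simpa using hz)
      exact ⟨⟨z, h3⟩, rfl, h2⟩
    obtain ⟨kx, hkx, hzx⟩ := hmem x hx (Or.inl (List.suffix_refl _))
    obtain ⟨ky, hky, hzy⟩ := hmem y hy (Or.inr (List.suffix_refl _))
    have hcomm : φ kx * φ ky = φ ky * φ kx := by
      rcases real.eq_empty_or_nonempty with h0 | ⟨e, he⟩
      · simp only [Z, h0, Set.image_empty, Subgroup.closure_empty, Subgroup.mem_bot] at hzx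
        simp [hzx]
      · have hle : Z ≤ Subgroup.zpowers (FreeGroup.of e) := (Subgroup.closure_le _).2 (by
          rintro _ ⟨e', he', rfl⟩
          rw [hc e he e' he']
          exact Subgroup.mem_zpowers _)
        obtain ⟨i, hi⟩ := Subgroup.mem_zpowers_iff.1 (hle hzx)
        obtain ⟨j, hj⟩ := Subgroup.mem_zpowers_iff.1 (hle hzy)
        rw [← hi, ← hj, ← zpow_add, ← zpow_add, add_comm]
    rw [← _root_.map_mul, ← _root_.map_mul] at hcomm
    exact hne (by rw [← hkx, ← hky]; exact congrArg Subtype.val (hinj hcomm))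
  obtain ⟨e0, he0, e1, he1, hne01⟩ := htwo
  haveI : Fintype {e : S × α // e ∉ tree} := Fintype.ofFinite _
  obtain ⟨m, hm⟩ : ∃ m, Fintype.card {e : S × α // e ∉ tree} = m + 2 :=
    ⟨_, (Nat.sub_add_cancel (Fintype.one_lt_card_iff.2 ⟨e0, e1, hne01⟩)).symm⟩
  obtain ⟨π, hπ⟩ := Equiv.Perm.exists_extending_pair (α := Bool)
    (fun c => Fintype.equivFinOfCardEq hm (if c then e1 else e0)) (fun c => if c then 1 else 0)
    (by
      intro c c' h
      have h' := (Fintype.equivFinOfCardEq hm).injective h
      cases c <;> cases c' <;> simp only [Bool.false_eq_true, if_true, if_false] at h' ⊢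
      · exact absurd h' hne01
      · exact absurd h'.symm hne01)
    (by
      intro c c' h
      have h' := congrArg Fin.val h
      cases c <;> cases c' <;>
        simp only [Bool.false_eq_true, if_true, if_false, Fin.val_zero, Fin.val_one] at h' ⊢ <;>
        omega)
  set ψ := FreeGroup.freeGroupCongr ((Fintype.equivFinOfCardEq hm).trans π)
  refine ⟨K, m, ψ.toMonoidHom.comp φ, ?_, ψ.injective.comp hinj, fun c => ?_⟩
  · exact Subgroup.finiteIndex_of_le (H := τ.ker) fun g (hg : τ g = 1) => by
      rw [hK, hg]; rfl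
  · obtain ⟨k, hk, hk'⟩ := hgen (if c then e1 else e0)
    refine ⟨k, hk ▸ hrealM _ (by cases c <;> assumption), ?_⟩
    show ψ (φ k) = _
    rw [hk']
    simp [ψ, hπ c]

end Vale.Agent.P165FreeProd.Sub
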