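import Vale.Agent.P165FreeProd.Ker.Cor
import Vale.Agent.P165FreeProd.Sub.Hall

/-!
# Groups virtually mapping to products of free groups with kernels of polynomial growth
-/

namespace Vale.Agent.P165FreeProd.Sub

open Vale.Agent.P165 Vale.Agent.P165FreeProd.Ker Filter Topology

section Free

variable {β : Type*} [DecidableEq β]

/-- Powers of a nontrivial element grow at least linearly. -/
theorem le_norm_pow {a : FreeGroup β} (ha : a ≠ 1) (k : ℕ) : k ≤ FreeGroup.norm (a ^ k) := by
  rcases eq_or_ne k 0 with rfl | hk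
  · exact Nat.zero_le _
  have key : ∀ j, j ≠ 0 → (a ^ j).toWord = FreeGroup.reduceCyclically.conjugator a.toWord ++
      (List.replicate j (FreeGroup.reduceCyclically a.toWord)).flatten ++
        FreeGroup.invRev (FreeGroup.reduceCyclically.conjugator a.toWord) := fun j hj => by
    rw [FreeGroup.toWord_pow,
      FreeGroup.reduceCyclically.reduce_flatten_replicate FreeGroup.isReduced_toWord, if_neg hj]
  have h0 : FreeGroup.reduceCyclically a.toWord ≠ [] := by
    intro h
    have h1 : (a ^ 2).toWord = (a ^ 1).toWord := by rw [key 2 two_ne_zero, key 1 one_ne_zero, h]; simp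
    have h2 := FreeGroup.toWord_injective h1
    rw [pow_two, pow_one] at h2
    exact ha (mul_eq_left.1 h2)
  rw [FreeGroup.norm, key k hk]
  simp only [List.length_append, List.length_flatten, List.map_replicate, List.sum_replicate,
    smul_eq_mul]
  have := Nat.le_mul_of_pos_right k (List.length_pos_iff.2 h0)
  omega

/-- A commutative subgroup of a free group meets the balls in linearly many elements. -/
theorem card_comm_le (A : Subgroup (FreeGroup β)) (hA : ∀ a ∈ A, ∀ b ∈ A, a * b = b * a)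
    (R : ℕ) (F : Finset (FreeGroup β)) (hF : ∀ a ∈ F, a ∈ A ∧ FreeGroup.norm a ≤ R) :
    F.card ≤ 2 * R + 1 := by
  classical
  obtain ⟨ι, ⟨bs⟩⟩ := IsFreeGroup.nonempty_basis (G := A)
  haveI : Subsingleton ι := ⟨fun i j => eq_of_commute_of i j (by
    refine bs.repr.symm.injective ?_
    rw [_root_.map_mul, _root_.map_mul]
    exact Subtype.ext (hA _ (Subtype.prop _) _ (Subtype.prop _)))⟩
  obtain ⟨a, ha⟩ : ∃ a : FreeGroup β, ∀ x ∈ A, ∃ k : ℤ, a ^ k = x := by
    rcases isEmpty_or_nonempty ι with hι | ⟨⟨i⟩⟩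
    · refine ⟨1, fun x hx => ⟨0, ?_⟩⟩
      have h1 : (⟨x, hx⟩ : A) = 1 := bs.repr.injective (Subsingleton.elim _ _)
      simpa using (congrArg Subtype.val h1).symm
    · refine ⟨(bs.repr.symm (FreeGroup.of i) : A), fun x hx => ?_⟩
      have hz : bs.repr ⟨x, hx⟩ ∈ Subgroup.zpowers (FreeGroup.of i) := by
        generalize bs.repr ⟨x, hx⟩ = z
        induction z using FreeGroup.induction_on with
        | C1 => exact Subgroup.one_mem _
        | of j => rw [Subsingleton.elim j i]; exact Subgroup.mem_zpowers _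
        | inv_of j h => exact Subgroup.inv_mem _ h
        | mul u v hu hv => exact Subgroup.mul_mem _ hu hv
      obtain ⟨k, hk⟩ := Subgroup.mem_zpowers_iff.1 hz
      refine ⟨k, ?_⟩
      have h1 : bs.repr.symm (FreeGroup.of i ^ k) = ⟨x, hx⟩ := by rw [hk, MulEquiv.symm_apply_apply]
      rw [_root_.map_zpow] at h1
      simpa using congrArg Subtype.val h1
  refine (Finset.card_le_card (t := (Finset.Icc (-(R : ℤ)) R).image (a ^ ·)) fun x hx => ?_).trans
    (Finset.card_image_le.trans (by rw [Int.card_Icc]; omega))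
  obtain ⟨hxA, hxR⟩ := hF x hx
  obtain ⟨k, rfl⟩ := ha x hxA
  rcases eq_or_ne a 1 with rfl | hne
  · exact Finset.mem_image.2 ⟨0, by simp, by simp⟩
  refine Finset.mem_image_of_mem _ (Finset.mem_Icc.2 ?_)
  have h1 : FreeGroup.norm (a ^ k.natAbs) = FreeGroup.norm (a ^ k) := by
    rcases Int.natAbs_eq k with h | h <;> conv_rhs => rw [h]
    · rw [zpow_natCast]
    · rw [zpow_neg, zpow_natCast, FreeGroup.norm_inv_eq]
  have := le_norm_pow hne k.natAbs
  omega

end Free

variable {Γ : Type*} [Group Γ] [DecidableEq Γ] {H : Subgroup Γ} {S : Finset Γ}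
  {d : ℕ}

/-- The elements of a factor met by the image. -/
def factorPart {n : Fin d → ℕ} (π : H →* Prd n) (i : Fin d) : Subgroup (FreeGroup (Fin (n i + 2))) :=
  π.range.comap (MonoidHom.mulSingle (fun j => FreeGroup (Fin (n j + 2))) i)

/-- Forgetting a factor met in a commutative group costs one degree. -/
theorem kerGrowth_drop {n : Fin (d + 1) → ℕ} (π : H →* Prd n) (hfi : H.FiniteIndex) {C e : ℕ}
    (hg : KerGrowth π S C e) (i : Fin (d + 1))
    (hA : ∀ a ∈ factorPart π i, ∀ b ∈ factorPart π i, a * b = b * a) :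
    ∃ (π' : H →* Prd (fun j => n (i.succAbove j))) (C' : ℕ), KerGrowth π' S C' (e + 1) := by
  obtain ⟨D⟩ := Ker.exists_dec hfi
  obtain ⟨M, hM⟩ := Ker.exists_lipschitz D π S
  set M' := M + size (π (D.hc 1))
  set π' : H →* Prd (fun j => n (i.succAbove j)) :=
    MonoidHom.mk' (fun h j => π h (i.succAbove j)) fun g h => funext fun j => by
      simp only [_root_.map_mul, Pi.mul_apply]
  refine ⟨π', C * 2 ^ e * (2 * M' + 1), fun m F hF => ?_⟩
  classical
  have hsingle : ∀ h ∈ F, Pi.mulSingle i (π h i) = π h := by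
    intro h hh
    funext j
    rcases Fin.eq_self_or_eq_succAbove i j with rfl | ⟨j, rfl⟩
    · rw [Pi.mulSingle_eq_same]
    · rw [Pi.mulSingle_eq_of_ne (Fin.succAbove_ne i j)]
      exact (congrFun (hF h hh).1 j).symm
  refine (Finset.card_le_mul_card_image (f := fun h => π h i) F (C * (2 * m + 1) ^ e)
    fun a _ => Ker.card_fibre hg _ (Pi.mulSingle i a) fun k hk => ?_).trans ?_
  · obtain ⟨hkF, rfl⟩ := Finset.mem_filter.1 hk
    exact ⟨(hsingle k hkF).symm, (hF k hkF).2⟩
  have h2 : (F.image fun h => π h i).card ≤ 2 * (M' * (m + 1)) + 1 := by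
    refine card_comm_le _ hA _ _ fun a ha => ?_
    obtain ⟨h, hh, rfl⟩ := Finset.mem_image.1 ha
    refine ⟨⟨h, (hsingle h hh).symm⟩, ?_⟩
    have h3 : size (π h * π (D.hc 1)) ≤ M * (m + 1) := by
      rw [← _root_.map_mul, ← D.hc_coe]
      exact hM m _ (hF h hh).2
    calc FreeGroup.norm (π h i) ≤ size (π h) :=
          Finset.single_le_sum (f := fun j => ((π h j).toWord).length) (fun _ _ => Nat.zero_le _)
            (Finset.mem_univ i)
      _ ≤ size (π h * π (D.hc 1)) + size (π (D.hc 1)) := size_ge _ _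
      _ ≤ _ := by simp only [M', add_mul]; nlinarith
  calc C * (2 * m + 1) ^ e * (F.image fun h => π h i).card
      ≤ C * (2 * (m + 1)) ^ e * ((2 * M' + 1) * (m + 1)) := by
        refine Nat.mul_le_mul (Nat.mul_le_mul_left _ (Nat.pow_le_pow_left (by omega) _))
          (h2.trans (by nlinarith))
    _ = _ := by rw [mul_pow, pow_succ]; ring

/-- The image holds every tuple taken from the factor parts. -/
theorem mem_range_of_forall {n : Fin d → ℕ} (π : H →* Prd n) (f : Prd n)
    (hf : ∀ i, f i ∈ factorPart π i) : f ∈ π.range := by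
  suffices h : ∀ s : Finset (Fin d), (fun i => if i ∈ s then f i else 1) ∈ π.range by
    simpa using h Finset.univ
  intro s
  induction s using Finset.induction_on with
  | empty => simp only [Finset.notMem_empty, if_false]; exact π.range.one_mem
  | insert a s ha ih =>
    convert π.range.mul_mem (hf a) ih using 1
    funext j
    rcases eq_or_ne j a with rfl | hne
    · simp [ha]
    · simp [hne]

/-- Linear expansion forces exponential growth. -/
theorem card_Ball_ge {h : ℝ} (hh : 0 < h) (hn : ∀ A : Finset Γ, h * A.card ≤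
    ({v | v ∉ A ∧ ∃ a ∈ A, (SimpleGraph.mulCayley (S : Set Γ)).Adj a v} : Set Γ).ncard) :
    ∀ m, (1 + h) ^ m ≤ ((Ball S m).card : ℝ)
  | 0 => by simp [Ball, reach]
  | m + 1 => by
    have hsub : ({v | v ∉ Ball S m ∧ ∃ a ∈ Ball S m,
        (SimpleGraph.mulCayley (S : Set Γ)).Adj a v} : Set Γ) ⊆
          ((Ball S (m + 1) \ Ball S m : Finset Γ) : Set Γ) := by
      rintro v ⟨hv, a, ha, hadj⟩
      obtain ⟨s, hs, rfl⟩ := Finset.mem_image.1 ((lf_cay S).mem.2 hadj)
      exact Finset.mem_coe.2 (Finset.mem_sdiff.2 ⟨(mem_Ball_succ S).2 (Or.inr ⟨a, ha, s, hs, rfl⟩), hv⟩)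
    have h1 := Set.ncard_le_ncard hsub (Finset.finite_toSet _)
    rw [Set.ncard_coe_finset] at h1
    have h2 : ((Ball S (m + 1) \ Ball S m).card : ℝ) + ((Ball S m).card : ℝ) =
        ((Ball S (m + 1)).card : ℝ) := by
      exact_mod_cast Finset.card_sdiff_add_card_eq_card (Ball_mono S (Nat.le_succ m))
    have h3 : h * (Ball S m).card ≤ ((Ball S (m + 1) \ Ball S m).card : ℝ) :=
      (hn _).trans (Nat.cast_le.2 h1)
    rw [pow_succ]
    nlinarith [card_Ball_ge hh hn m]

/-- A nonamenable Cayley graph has no balls of polynomial size. -/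
theorem not_poly (hn : Nonamenable (SimpleGraph.mulCayley (S : Set Γ))) (C e : ℕ)
    (hC : ∀ m, (Ball S m).card ≤ C * (m + 1) ^ e) : False := by
  obtain ⟨h, hh, hn⟩ := hn
  have t1 := ((tendsto_pow_const_div_const_pow_of_one_lt e (show (1 : ℝ) < 1 + h by linarith)).comp
    (tendsto_add_atTop_nat 1)).mul_const (C * (1 + h) : ℝ)
  rw [zero_mul] at t1
  obtain ⟨m, hm⟩ := (t1.eventually (gt_mem_nhds one_pos)).exists
  have h1 : (1 + h) ^ m ≤ C * ((m : ℝ) + 1) ^ e :=
    (card_Ball_ge hh hn m).trans (by exact_mod_cast hC m)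
  simp only [Function.comp_apply, Nat.cast_add, Nat.cast_one, pow_succ] at hm
  rw [div_mul_eq_mul_div, div_lt_one (by positivity)] at hm
  nlinarith [mul_le_mul_of_nonneg_right h1 (show (0 : ℝ) ≤ 1 + h by linarith)]

/-- The main theorem. -/
theorem pc_lt_pu_of_hom {S : Finset Γ} [Countable Γ] (hS : Subgroup.closure (S : Set Γ) = ⊤)
    (hn : Nonamenable (SimpleGraph.mulCayley (S : Set Γ))) :
    ∀ (d : ℕ) (n : Fin d → ℕ) (H : Subgroup Γ), H.FiniteIndex → ∀ (π : H →* Prd n) (C e : ℕ),
      KerGrowth π S C e →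
        pc (SimpleGraph.mulCayley (S : Set Γ)) < pu (SimpleGraph.mulCayley (S : Set Γ)) := by
  intro d
  induction d with
  | zero =>
    intro n H hfi π C e hg
    exfalso
    classical
    obtain ⟨D⟩ := Ker.exists_dec hfi
    obtain ⟨r0, hr0⟩ := Ker.exists_radius hS (D.R.image (·⁻¹))
    refine not_poly hn (D.R.card * C * (r0 + 1) ^ e) e fun m => ?_
    have hinj : Set.InjOn (fun x => (D.hc x, D.rc x)) (Ball S m) := fun x _ y _ hxy => by
      simp only [Prod.mk.injEq] at hxy
      rw [← D.eq x, ← D.eq y, hxy.1, hxy.2]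
    have hsub : (Ball S m).image (fun x => (D.hc x, D.rc x)) ⊆
        ((Ball S m).image D.hc) ×ˢ D.R := by
      intro q hq
      obtain ⟨x, hx, rfl⟩ := Finset.mem_image.1 hq
      exact Finset.mem_product.2 ⟨Finset.mem_image_of_mem _ hx, D.mem x⟩
    have hF : ((Ball S m).image D.hc).card ≤ C * (m + r0 + 1) ^ e := by
      refine hg (m + r0) _ fun g hgm => ⟨Subsingleton.elim _ _, ?_⟩
      obtain ⟨x, hx, rfl⟩ := Finset.mem_image.1 hgm
      rw [eq_mul_inv_of_mul_eq (D.eq x)]
      exact mul_mem_Ball S hx (hr0 (Finset.mem_image_of_mem _ (D.mem x)))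
    rw [← Finset.card_image_of_injOn hinj]
    refine (Finset.card_le_card hsub).trans ?_
    rw [Finset.card_product]
    calc ((Ball S m).image D.hc).card * D.R.card ≤ C * ((r0 + 1) * (m + 1)) ^ e * D.R.card :=
          Nat.mul_le_mul_right _ (hF.trans (Nat.mul_le_mul_left _ (Nat.pow_le_pow_left (by nlinarith) _)))
      _ = _ := by rw [mul_pow]; ring
  | succ d ih =>
    intro n H hfi π C e hg
    by_cases hA : ∃ i, ∀ a ∈ factorPart π i, ∀ b ∈ factorPart π i, a * b = b * a
    · obtain ⟨i, hi⟩ := hA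
      obtain ⟨π', C', hg'⟩ := kerGrowth_drop π hfi hg i hi
      exact ih _ H hfi π' C' _ hg'
    push Not at hA
    choose x hx y hy hne using hA
    choose K m φ hK hφ hbasis using fun i => exists_hall (factorPart π i) (hx i) (hy i) (hne i)
    set H2 : Subgroup H := ⨅ i, (K i).comap ((Pi.evalMonoidHom _ i).comp π)
    have hH2 : H2.FiniteIndex := Subgroup.finiteIndex_iInf fun i => by
      haveI := hK i
      haveI := Subgroup.isFiniteRelIndex_of_finiteIndex (H := K i) (K := ((Pi.evalMonoidHom _ i).comp π).range)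
      exact ⟨by rw [Subgroup.index_comap]; exact Subgroup.IsFiniteRelIndex.relIndex_ne_zero⟩
    set ι := H2.equivMapOfInjective H.subtype Subtype.val_injective
    have hmemK : ∀ (g : H2) i, π (g : H) i ∈ K i := fun g i => (Subgroup.mem_iInf.1 g.2) i
    set π2 : H2 →* Prd m := MonoidHom.mk' (fun g i => φ i ⟨π (g : H) i, hmemK g i⟩) fun g g' =>
      funext fun i => by
        rw [Pi.mul_apply, ← _root_.map_mul]
        exact congrArg _ (Subtype.ext (by simp))
    have hfi2 : (H2.map H.subtype).FiniteIndex :=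
      ⟨by rw [Subgroup.index_map_subtype]; exact mul_ne_zero hH2.index_ne_zero hfi.index_ne_zero⟩
    refine pc_lt_pu_kernel (C := C) (e := e) (Nat.succ_pos d) hS _ hfi2 (π2.comp ι.symm.toMonoidHom)
      (fun v => ?_) ?_
    · choose k hkM hk using fun i => hbasis i (v i)
      obtain ⟨g, hg⟩ := mem_range_of_forall π (fun i => ((k i : K i) : FreeGroup _)) hkM
      have hg2 : g ∈ H2 := Subgroup.mem_iInf.2 fun i => by
        show π g i ∈ K i
        rw [hg]; exact (k i).2
      refine ⟨ι ⟨g, hg2⟩, ?_⟩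
      show π2 (ι.symm (ι ⟨g, hg2⟩)) = _
      rw [MulEquiv.symm_apply_apply]
      funext i
      show φ i _ = gv v i
      rw [show (⟨π g i, hmemK ⟨g, hg2⟩ i⟩ : K i) = k i from Subtype.ext (congrFun hg i), hk i]
      rfl
    · intro r F hF
      classical
      have hinj : Function.Injective fun x => ((ι.symm x : H2) : H) :=
        Subtype.val_injective.comp ι.symm.injective
      rw [← Finset.card_image_of_injective F hinj]
      refine hg r _ fun g hg => ?_
      obtain ⟨x, hx, rfl⟩ := Finset.mem_image.1 hg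
      refine ⟨funext fun i => ?_, ?_⟩
      · have h1 : φ i ⟨_, hmemK (ι.symm x) i⟩ = 1 := congrFun (hF x hx).1 i
        exact congrArg Subtype.val (hφ i (h1.trans (_root_.map_one (φ i)).symm))
      · have h2 : (((ι.symm x : H2) : H) : Γ) = ((x : H2.map H.subtype) : Γ) := by
          conv_rhs => rw [← ι.apply_symm_apply x]
          rfl
        rw [h2]; exact (hF x hx).2

end Vale.Agent.P165FreeProd.Sub
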